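import Claimed.Agent.R255.Cl.Dich.Canon

/-!
# Row 255 (BR paper), chapter DICHOTOMY, package DC-MEXT, leaf `dc_hom_ext` (L2.9 (2))        (helper9; prefix `dc_hx_`)

Homogeneity at all real admissible symbols from homogeneity at the rational ones.
1. finite lemmas: two observations with mutual ambiguity `≤ N` have entropies within `log N` and surprises within `log N + t` outside probability `2 e^{-t}`;
2. sequences: the exponent is the ultralimit of the normalised conditional entropies;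
3. ambiguity of the canonical observations (`dc_mobs_lip`, dyadic cells), of lists, of pairs;
4. rational admissible symbols are dense in the admissible ones.
-/

set_option autoImplicit false

namespace Claimed.Agent.R255

open Filter Topology
open Classical
open FLaw

section fin

variable {Ω : Type} [Fintype Ω] {α β α' β' : Type}

theorem dc_hx_nval_mono (P : FLaw Ω) {B : Ω → β} {A : Ω → α} {N N' : ℝ} (h : P.NVal (fun _ => True) B A N) (hN : N ≤ N') :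
    P.NVal (fun _ => True) B A N' := fun ω₀ => by
  obtain ⟨S, hS, hS'⟩ := h ω₀
  exact ⟨S, hS.trans hN, hS'⟩

theorem dc_hx_nval_pair (P : FLaw Ω) {B : Ω → β} {A : Ω → α} {B' : Ω → β'} {A' : Ω → α'} {N N' : ℝ}
    (h : P.NVal (fun _ => True) B A N) (h' : P.NVal (fun _ => True) B' A' N') :
    P.NVal (fun _ => True) (pair B B') (pair A A') (N * N') := fun ω₀ => by
  obtain ⟨S, hS, hS'⟩ := h ω₀
  obtain ⟨S₂, hS₂, hS₂'⟩ := h' ω₀
  refine ⟨S ×ˢ S₂, ?_, fun ω hω _ hA => ?_⟩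
  · rw [Finset.card_product]
    push_cast
    exact mul_le_mul hS hS₂ (Nat.cast_nonneg _) ((Nat.cast_nonneg _).trans hS)
  · have h1 : A ω = A ω₀ := congrArg Prod.fst hA
    have h2 : A' ω = A' ω₀ := congrArg Prod.snd hA
    exact Finset.mem_product.2 ⟨hS' ω hω trivial h1, hS₂' ω hω trivial h2⟩

theorem dc_hx_nval_self (P : FLaw Ω) (A : Ω → α) : P.NVal (fun _ => True) A A 1 := fun ω₀ =>
  ⟨{A ω₀}, by simp, fun ω _ _ h => by simp [h]⟩

theorem dc_hx_ent_le (P : FLaw Ω) (Z : Ω → α) (Z' : Ω → β) {N : ℝ} (h : P.NVal (fun _ => True) Z Z' N) :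
    P.ent Z ≤ P.ent Z' + Real.log N := by
  have h1 := ent_le_pair_left P Z Z'
  have h2 := ent_pair_eq P Z Z'
  have h3 := ent_entC_le_log_nval P Z Z' h
  linarith

theorem dc_hx_fib_swap (P : FLaw Ω) (Z : Ω → α) (Z' : Ω → β) (ω : Ω) : P.fib (pair Z Z') ω = P.fib (pair Z' Z) ω := by
  rw [ent_fib_pair, ent_fib_pair]
  exact ent_pr_congr P fun ω' _ => and_comm

/-- surprises of two observations with mutual ambiguity `≤ N` -/
theorem dc_hx_sur (P : FLaw Ω) (Z : Ω → α) (Z' : Ω → β) {N : ℝ} (hN : 0 < N) (h : P.NVal (fun _ => True) Z Z' N)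
    (h' : P.NVal (fun _ => True) Z' Z N) (t : ℝ) :
    P.pr (fun ω => Real.log N + t < |Real.log (P.fib Z ω) - Real.log (P.fib Z' ω)|) ≤ 2 * Real.exp (-t) := by
  have h1 := ent_surC_tail P Z Z' hN h t
  have h2 := ent_surC_tail P Z' Z hN h' t
  have h3 : P.pr (fun ω => Real.log N + t < |Real.log (P.fib Z ω) - Real.log (P.fib Z' ω)|) ≤
      P.pr (fun ω => Real.log N + t < P.surC Z Z' ω ∨ Real.log N + t < P.surC Z' Z ω) := by
    refine ent_pr_mono P fun ω hω hE => ?_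
    have e1 := ent_surC_eq_sub P Z Z' hω
    have e2 := ent_surC_eq_sub P Z' Z hω
    have n1 := ent_surC_nonneg P Z Z' hω
    have n2 := ent_surC_nonneg P Z' Z hω
    rw [dc_hx_fib_swap P Z' Z ω] at e2
    have e3 : Real.log (P.fib Z ω) - Real.log (P.fib Z' ω) = P.surC Z' Z ω - P.surC Z Z' ω := by linarith
    rw [e3] at hE
    by_contra hc
    push Not at hc
    have : |P.surC Z' Z ω - P.surC Z Z' ω| ≤ Real.log N + t := abs_le.2 ⟨by linarith [hc.1], by linarith [hc.2]⟩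
    linarith
  have h4 := ent_pr_or_le P (fun ω => Real.log N + t < P.surC Z Z' ω) (fun ω => Real.log N + t < P.surC Z' Z ω)
  linarith

/-- **finite lemma**, entropies -/
theorem dc_hx_entC (P : FLaw Ω) (Y : Ω → α) (X : Ω → β) (Y' : Ω → α') (X' : Ω → β') {N : ℝ}
    (h1 : P.NVal (fun _ => True) (pair Y X) (pair Y' X') N) (h2 : P.NVal (fun _ => True) (pair Y' X') (pair Y X) N)
    (h3 : P.NVal (fun _ => True) X X' N) (h4 : P.NVal (fun _ => True) X' X N) :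
    |P.entC Y X - P.entC Y' X'| ≤ 2 * Real.log N := by
  have a1 := dc_hx_ent_le P _ _ h1
  have a2 := dc_hx_ent_le P _ _ h2
  have a3 := dc_hx_ent_le P _ _ h3
  have a4 := dc_hx_ent_le P _ _ h4
  unfold FLaw.entC
  exact abs_le.2 ⟨by linarith, by linarith⟩

/-- **finite lemma**, surprises -/
theorem dc_hx_surC (P : FLaw Ω) (Y : Ω → α) (X : Ω → β) (Y' : Ω → α') (X' : Ω → β') {N : ℝ} (hN : 0 < N)
    (h1 : P.NVal (fun _ => True) (pair Y X) (pair Y' X') N) (h2 : P.NVal (fun _ => True) (pair Y' X') (pair Y X) N)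
    (h3 : P.NVal (fun _ => True) X X' N) (h4 : P.NVal (fun _ => True) X' X N) (t : ℝ) :
    P.pr (fun ω => 2 * (Real.log N + t) < |P.surC Y X ω - P.surC Y' X' ω|) ≤ 4 * Real.exp (-t) := by
  have a1 := dc_hx_sur P _ _ hN h1 h2 t
  have a2 := dc_hx_sur P _ _ hN h3 h4 t
  have a3 : P.pr (fun ω => 2 * (Real.log N + t) < |P.surC Y X ω - P.surC Y' X' ω|) ≤
      P.pr (fun ω => Real.log N + t < |Real.log (P.fib (pair Y X) ω) - Real.log (P.fib (pair Y' X') ω)| ∨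
        Real.log N + t < |Real.log (P.fib X ω) - Real.log (P.fib X' ω)|) := by
    refine ent_pr_mono P fun ω hω hE => ?_
    rw [ent_surC_eq_sub P Y X hω, ent_surC_eq_sub P Y' X' hω] at hE
    by_contra hc
    push Not at hc
    have b1 := abs_le.1 hc.1
    have b2 := abs_le.1 hc.2
    have : |Real.log (P.fib X ω) - Real.log (P.fib (pair Y X) ω) - (Real.log (P.fib X' ω) - Real.log (P.fib (pair Y' X') ω))| ≤
        2 * (Real.log N + t) := abs_le.2 ⟨by linarith [b1.1, b1.2, b2.1, b2.2], by linarith [b1.1, b1.2, b2.1, b2.2]⟩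
    linarith
  have a4 := ent_pr_or_le P (fun ω => Real.log N + t < |Real.log (P.fib (pair Y X) ω) - Real.log (P.fib (pair Y' X') ω)|)
    (fun ω => Real.log N + t < |Real.log (P.fib X ω) - Real.log (P.fib X' ω)|)
  linarith

/-- mutual ambiguity `≤ N` of two conditional observations -/
def dc_hx_Amb (P : FLaw Ω) (Y : Ω → α) (X : Ω → β) (Y' : Ω → α') (X' : Ω → β') (N : ℝ) : Prop :=
  P.NVal (fun _ => True) (pair Y X) (pair Y' X') N ∧ P.NVal (fun _ => True) (pair Y' X') (pair Y X) N ∧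
    P.NVal (fun _ => True) X X' N ∧ P.NVal (fun _ => True) X' X N

end fin

section seq

theorem dc_hx_lg_pos (Q : CSeq) (n : ℕ) : 0 < lg (Q.ε n) := by
  unfold lg
  exact Real.log_pos ((one_lt_div (Q.pos n).1).2 (Q.pos n).2)

theorem dc_hx_lg_atTop (Q : CSeq) : Tendsto (fun n => lg (Q.ε n)) uf atTop := by
  have h0 : Tendsto Q.ε uf (𝓝[>] 0) := tendsto_nhdsWithin_iff.2 ⟨Q.lim, Eventually.of_forall fun n => (Q.pos n).1⟩
  have h1 : Tendsto (fun n => Real.log (Q.ε n)) uf atBot := Real.tendsto_log_nhdsGT_zero.comp h0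
  have h2 : (fun n => lg (Q.ε n)) = fun n => - Real.log (Q.ε n) := by
    funext n
    unfold lg
    rw [one_div, Real.log_inv]
  rw [h2]
  exact tendsto_neg_atBot_atTop.comp h1

/-- **sequences**: an observation which is approximated, with mutual ambiguity `ε^{-ν}` for every `ν > 0`, by homogeneous ones is homogeneous -/
theorem dc_hx_seq (Q : CSeq) {α β : ℕ → Type} (Y : Q.Obs α) (X : Q.Obs β)
    (hap : ∀ ν : ℝ, 0 < ν → ∃ (α' β' : ℕ → Type) (Y' : Q.Obs α') (X' : Q.Obs β') (d : ℝ), Q.Homog Y' X' d ∧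
      ∀ᶠ n in uf, ∃ N : ℝ, 0 < N ∧ Real.log N ≤ ν * lg (Q.ε n) ∧ dc_hx_Amb (Q.S n).P (Y n) (X n) (Y' n) (X' n) N) :
    ∃ d, Q.Homog Y X d := by
  have := uf_neBot
  have hlg := dc_hx_lg_atTop Q
  -- step A
  have hA : ∀ (ν : ℝ) (α' β' : ℕ → Type) (Y' : Q.Obs α') (X' : Q.Obs β'),
      (∀ᶠ n in uf, ∃ N : ℝ, 0 < N ∧ Real.log N ≤ ν * lg (Q.ε n) ∧ dc_hx_Amb (Q.S n).P (Y n) (X n) (Y' n) (X' n) N) →
      ∀ᶠ n in uf, |Q.seqHC Y X n - Q.seqHC Y' X' n| ≤ 2 * ν := by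
    intro ν α' β' Y' X' h
    filter_upwards [h] with n hn
    obtain ⟨N, hN, hlog, a1, a2, a3, a4⟩ := hn
    have hl := dc_hx_lg_pos Q n
    have h1 := dc_hx_entC (Q.S n).P (Y n) (X n) (Y' n) (X' n) a1 a2 a3 a4
    unfold CSeq.seqHC
    rw [← sub_div, abs_div, abs_of_pos hl, div_le_iff₀ hl]
    nlinarith
  -- step B
  have hB : UBdd (Q.seqHC Y X) := by
    obtain ⟨α', β', Y', X', d', hH, hN⟩ := hap 1 one_pos
    have h1 := hA 1 α' β' Y' X' hN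
    have h2 : ∀ᶠ n in uf, |Q.seqHC Y' X' n - d'| < 1 := by
      have := (tendsto_order.1 ((tendsto_iff_dist_tendsto_zero.1 hH.1))).2 1 one_pos
      simpa [Real.dist_eq] using this
    refine ⟨|d'| + 3, ?_⟩
    filter_upwards [h1, h2] with n a b
    have e : Q.seqHC Y X n = (Q.seqHC Y X n - Q.seqHC Y' X' n) + (Q.seqHC Y' X' n - d') + d' := by ring
    rw [e]
    have := abs_add_three (Q.seqHC Y X n - Q.seqHC Y' X' n) (Q.seqHC Y' X' n - d') d'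
    linarith
  have hd := ulim_tendsto _ hB
  refine ⟨ulim (Q.seqHC Y X), hd, fun η hη => ?_⟩
  obtain ⟨α', β', Y', X', d', hH, hN⟩ := hap (η / 16) (by positivity)
  -- step C
  have hC : |ulim (Q.seqHC Y X) - d'| ≤ 2 * (η / 16) :=
    le_of_tendsto ((hd.sub hH.1).abs) (hA _ α' β' Y' X' hN)
  -- step D
  have hG := hH.2 (η / 2) (by positivity)
  have hE : Tendsto (fun n => 4 * Real.exp (-(η / 16 * lg (Q.ε n)))) uf (𝓝 0) := by
    have h1 : Tendsto (fun n => η / 16 * lg (Q.ε n)) uf atTop := hlg.const_mul_atTop (by positivity)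
    have h2 := Real.tendsto_exp_neg_atTop_nhds_zero.comp h1
    simpa using h2.const_mul 4
  have hsum := hE.add hG
  rw [add_zero] at hsum
  refine tendsto_of_tendsto_of_tendsto_of_le_of_le' tendsto_const_nhds hsum
    (Eventually.of_forall fun n => ent_pr_nonneg _ _) ?_
  filter_upwards [hN] with n hn
  obtain ⟨N, hN0, hlog, a1, a2, a3, a4⟩ := hn
  have hl := dc_hx_lg_pos Q n
  have h1 := dc_hx_surC (Q.S n).P (Y n) (X n) (Y' n) (X' n) hN0 a1 a2 a3 a4 (η / 16 * lg (Q.ε n))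
  have h2 := ent_pr_or_le (Q.S n).P
    (fun ω => 2 * (Real.log N + η / 16 * lg (Q.ε n)) < |(Q.S n).P.surC (Y n) (X n) ω - (Q.S n).P.surC (Y' n) (X' n) ω|)
    (fun ω => η / 2 < |(Q.S n).P.surC (Y' n) (X' n) ω / lg (Q.ε n) - d'|)
  refine le_trans (ent_pr_mono _ fun ω _ hω => ?_) (h2.trans (add_le_add_left h1 _))
  by_contra hc
  push Not at hc
  obtain ⟨c1, c2⟩ := hc
  have c3 : |(Q.S n).P.surC (Y n) (X n) ω / lg (Q.ε n) - (Q.S n).P.surC (Y' n) (X' n) ω / lg (Q.ε n)| ≤ 4 * (η / 16) := by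
    rw [← sub_div, abs_div, abs_of_pos hl, div_le_iff₀ hl]
    nlinarith
  have e : (Q.S n).P.surC (Y n) (X n) ω / lg (Q.ε n) - ulim (Q.seqHC Y X) =
      ((Q.S n).P.surC (Y n) (X n) ω / lg (Q.ε n) - (Q.S n).P.surC (Y' n) (X' n) ω / lg (Q.ε n)) +
        ((Q.S n).P.surC (Y' n) (X' n) ω / lg (Q.ε n) - d') + -(ulim (Q.seqHC Y X) - d') := by ring
  rw [e] at hω
  have := abs_add_three ((Q.S n).P.surC (Y n) (X n) ω / lg (Q.ε n) - (Q.S n).P.surC (Y' n) (X' n) ω / lg (Q.ε n))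
    ((Q.S n).P.surC (Y' n) (X' n) ω / lg (Q.ε n) - d') (-(ulim (Q.seqHC Y X) - d'))
  rw [abs_neg] at this
  linarith

end seq

section amb

theorem dc_hx_lev (ε v v' ν : ℝ) (h0 : 0 < ε) (h1 : ε < 1) (hν : |v - v'| ≤ ν) :
    (2 : ℝ) ^ (tlev ε v) / 2 ^ (tlev ε v') ≤ 2 * Real.exp (ν * lg ε) := by
  have hL : 0 < Real.logb 2 (1 / ε) := Real.logb_pos (by norm_num) ((one_lt_div h0).2 h1)
  have hk : ((tlev ε v : ℕ) : ℝ) ≤ max (v * Real.logb 2 (1 / ε)) 0 + 1 := by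
    unfold tlev
    rcases le_total 0 (v * Real.logb 2 (1 / ε)) with h | h
    · rw [max_eq_left h]; exact (Nat.ceil_lt_add_one h).le
    · rw [max_eq_right h, Nat.ceil_eq_zero.2 h]; simp
  have hk' : max (v' * Real.logb 2 (1 / ε)) 0 ≤ ((tlev ε v' : ℕ) : ℝ) :=
    max_le (Nat.le_ceil _) (Nat.cast_nonneg _)
  have hd : max (v * Real.logb 2 (1 / ε)) 0 - max (v' * Real.logb 2 (1 / ε)) 0 ≤ ν * Real.logb 2 (1 / ε) := by
    have h2 : v * Real.logb 2 (1 / ε) ≤ v' * Real.logb 2 (1 / ε) + ν * Real.logb 2 (1 / ε) := by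
      have := (abs_le.1 hν).2
      nlinarith
    have hν0 : 0 ≤ ν := (abs_nonneg _).trans hν
    have h3 : 0 ≤ ν * Real.logb 2 (1 / ε) := by positivity
    have h4 : max (v * Real.logb 2 (1 / ε)) 0 ≤ max (v' * Real.logb 2 (1 / ε)) 0 + ν * Real.logb 2 (1 / ε) :=
      max_le (h2.trans (add_le_add_left (le_max_left _ _) _)) (add_nonneg (le_max_right _ _) h3)
    linarith
  have e1 : (2 : ℝ) ^ (tlev ε v) / 2 ^ (tlev ε v') = (2 : ℝ) ^ (((tlev ε v : ℕ) : ℝ) - ((tlev ε v' : ℕ) : ℝ)) := by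
    rw [Real.rpow_sub (by norm_num), Real.rpow_natCast, Real.rpow_natCast]
  rw [e1]
  have e2 : (2 : ℝ) ^ (ν * Real.logb 2 (1 / ε) + 1) = 2 * Real.exp (ν * lg ε) := by
    rw [Real.rpow_add (by norm_num), Real.rpow_one, mul_comm, Real.rpow_def_of_pos (by norm_num)]
    congr 2
    unfold lg Real.logb
    have : Real.log 2 ≠ 0 := (Real.log_pos (by norm_num)).ne'
    field_simp
  rw [← e2]
  exact Real.rpow_le_rpow_of_exponent_le (by norm_num) (by linarith)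

/-- the cells of depth `v` inside a cell of depth `v'` -/
theorem dc_hx_cell (ε v v' ν : ℝ) (h0 : 0 < ε) (h1 : ε < 1) (hν : |v - v'| ≤ ν) (j' : ℤ) :
    ∃ S : Finset ℤ, (S.card : ℝ) ≤ 4 * Real.exp (ν * lg ε) ∧ ∀ c : ℝ, tcell ε v' c = j' → tcell ε v c ∈ S := by
  obtain ⟨r, hr⟩ : ∃ r : ℝ, r = (2 : ℝ) ^ (tlev ε v) / 2 ^ (tlev ε v') := ⟨_, rfl⟩
  have hr0 : 0 < r := by rw [hr]; positivity
  have hr1 : r ≤ 2 * Real.exp (ν * lg ε) := by rw [hr]; exact dc_hx_lev ε v v' ν h0 h1 hν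
  have hν0 : 0 ≤ ν := (abs_nonneg _).trans hν
  have hl : 0 < lg ε := by unfold lg; exact Real.log_pos ((one_lt_div h0).2 h1)
  have hexp : 1 ≤ Real.exp (ν * lg ε) := Real.one_le_exp (by positivity)
  refine ⟨Finset.Icc ⌊(j' : ℝ) * r⌋ (⌈((j' : ℝ) + 1) * r⌉ - 1), ?_, fun c hc => ?_⟩
  · rw [Int.card_Icc]
    have h2 : ((⌈((j' : ℝ) + 1) * r⌉ - 1 + 1 - ⌊(j' : ℝ) * r⌋ : ℤ) : ℝ) ≤ r + 2 := by
      push_cast
      have a1 := Int.ceil_lt_add_one (((j' : ℝ) + 1) * r)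
      have a2 := Int.sub_one_lt_floor ((j' : ℝ) * r)
      linarith
    have h3 : (((⌈((j' : ℝ) + 1) * r⌉ - 1 + 1 - ⌊(j' : ℝ) * r⌋ : ℤ).toNat : ℕ) : ℝ) ≤ r + 2 := by
      rcases le_total 0 (⌈((j' : ℝ) + 1) * r⌉ - 1 + 1 - ⌊(j' : ℝ) * r⌋ : ℤ) with h | h
      · have : (((⌈((j' : ℝ) + 1) * r⌉ - 1 + 1 - ⌊(j' : ℝ) * r⌋ : ℤ).toNat : ℕ) : ℝ) =
            ((⌈((j' : ℝ) + 1) * r⌉ - 1 + 1 - ⌊(j' : ℝ) * r⌋ : ℤ) : ℝ) := by
          exact_mod_cast congrArg (fun z : ℤ => (z : ℝ)) (Int.toNat_of_nonneg h)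
        rw [this]; exact h2
      · rw [Int.toNat_of_nonpos h]; simp; linarith
    linarith
  · unfold tcell at hc ⊢
    have b1 : (j' : ℝ) ≤ c * 2 ^ (tlev ε v') := by rw [← hc]; exact Int.floor_le _
    have b2 : c * 2 ^ (tlev ε v') < (j' : ℝ) + 1 := by rw [← hc]; exact Int.lt_floor_add_one _
    have e : c * 2 ^ (tlev ε v) = c * 2 ^ (tlev ε v') * r := by rw [hr]; field_simp
    rw [Finset.mem_Icc, e]
    constructor
    · exact Int.floor_le_floor (mul_le_mul_of_nonneg_right b1 hr0.le)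
    · have b3 : c * 2 ^ (tlev ε v') * r < ((j' : ℝ) + 1) * r := mul_lt_mul_of_pos_right b2 hr0
      have b4 : ((⌊c * 2 ^ (tlev ε v') * r⌋ : ℤ) : ℝ) < ((⌈((j' : ℝ) + 1) * r⌉ : ℤ) : ℝ) :=
        lt_of_le_of_lt (Int.floor_le _) (b3.trans_le (Int.le_ceil _))
      have b5 : ⌊c * 2 ^ (tlev ε v') * r⌋ < ⌈((j' : ℝ) + 1) * r⌉ := by exact_mod_cast b4
      omega

/-- two symbols of the same kind with all coordinates within `ν` -/
def dc_hx_Close (ν : ℝ) : Sym → Sym → Prop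
  | Sum.inl z, Sum.inl z' => |z.LX - z'.LX| ≤ ν ∧ |z.LY - z'.LY| ≤ ν ∧ |z.LW - z'.LW| ≤ ν ∧ |z.LZ - z'.LZ| ≤ ν ∧
      |z.v - z'.v| ≤ ν
  | Sum.inr v, Sum.inr v' => |v.1 - v'.1| ≤ ν ∧ |v.2 - v'.2| ≤ ν
  | _, _ => False

theorem dc_hx_close_symm {ν : ℝ} {x x' : Sym} (h : dc_hx_Close ν x x') : dc_hx_Close ν x' x := by
  rcases x with z | v <;> rcases x' with z' | v'
  · obtain ⟨a1, a2, a3, a4, a5⟩ := h
    exact ⟨by rwa [abs_sub_comm], by rwa [abs_sub_comm], by rwa [abs_sub_comm], by rwa [abs_sub_comm],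
      by rwa [abs_sub_comm]⟩
  · exact h
  · exact h
  · obtain ⟨a1, a2⟩ := h
    exact ⟨by rwa [abs_sub_comm], by rwa [abs_sub_comm]⟩

theorem dc_hx_exp3 : (16 : ℝ) ≤ Real.exp 3 := by
  have h1 := Real.exp_one_gt_d9
  have h2 : Real.exp 3 = Real.exp 1 ^ 3 := by rw [← Real.exp_nat_mul]; norm_num
  rw [h2]
  have h3 : (2.7 : ℝ) ≤ Real.exp 1 := by linarith
  calc (16 : ℝ) ≤ 2.7 ^ 3 := by norm_num
    _ ≤ Real.exp 1 ^ 3 := pow_le_pow_left₀ (by norm_num) h3 3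

/-- ambiguity of one symbol -/
theorem dc_hx_sym {γ m : ℝ} (hm : 0 < m) : ∃ C : ℝ, 0 ≤ C ∧ ∀ (M : Matched γ m) (ν : ℝ) (x x' : Sym) (n : ℕ),
    0 ≤ ν → x.Adm m → dc_hx_Close ν x x' →
    (M.Q.S n).P.NVal (fun _ => True) (M.OS x n) (M.OS x' n) (Real.exp (C * ν * lg (M.Q.ε n) + C)) := by
  obtain ⟨C1, hC1⟩ := dc_mobs_lip m hm.le
  refine ⟨|C1| + 3, by positivity, fun M ν x x' n hν hx hc => ?_⟩
  obtain ⟨e0, e1⟩ := M.Q.pos n
  have hl := dc_hx_lg_pos M.Q n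
  have hνl : 0 ≤ ν * lg (M.Q.ε n) := by positivity
  rcases x with z | v <;> rcases x' with z' | v'
  · obtain ⟨a1, a2, a3, a4, a5⟩ := hc
    obtain ⟨N, hN, hcard⟩ := hC1 (M.Q.S n) (M.Q.ε n) ν z z' (M.R n) e0 e1 hx hν a1 a2 a3 a4 a5
    intro ω₀
    refine ⟨(Finset.univ.filter (fun ω => (M.Q.S n).mO m (M.Q.ε n) z' (M.R n) ω =
      (M.Q.S n).mO m (M.Q.ε n) z' (M.R n) ω₀)).image ((M.Q.S n).mO m (M.Q.ε n) z (M.R n)),
      ((hcard _).trans hN).trans (Real.exp_le_exp.2 ?_), fun ω _ _ hA => ?_⟩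
    · have b1 : C1 ≤ |C1| := le_abs_self _
      have b2 : C1 * (ν * lg (M.Q.ε n)) ≤ (|C1| + 3) * (ν * lg (M.Q.ε n)) :=
        mul_le_mul_of_nonneg_right (by linarith) hνl
      nlinarith
    · exact Finset.mem_image_of_mem _ (Finset.mem_filter.2 ⟨Finset.mem_univ _, hA⟩)
  · exact hc.elim
  · exact hc.elim
  · obtain ⟨a1, a2⟩ := hc
    intro ω₀
    obtain ⟨S1, hS1, hS1'⟩ := dc_hx_cell (M.Q.ε n) v.1 v'.1 ν e0 e1 a1 (tcell (M.Q.ε n) v'.1 ((M.Q.S n).c ω₀))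
    obtain ⟨S2, hS2, hS2'⟩ := dc_hx_cell (M.Q.ε n) v.2 v'.2 ν e0 e1 a2 (tcell (M.Q.ε n) v'.2 (M.R n ω₀))
    refine ⟨(S1 ×ˢ S2).image (fun p => (p.1, p.2, 0, 0, 0, 0)), ?_, fun ω _ _ hA => ?_⟩
    · have c1 : (((S1 ×ˢ S2).image (fun p : ℤ × ℤ => ((p.1, p.2, 0, 0, 0, 0) : ℤ × ℤ × ℤ × ℤ × ℤ × ℤ))).card : ℝ) ≤
          (S1.card : ℝ) * S2.card := by
        have := Finset.card_image_le (s := S1 ×ˢ S2)
          (f := fun p : ℤ × ℤ => ((p.1, p.2, 0, 0, 0, 0) : ℤ × ℤ × ℤ × ℤ × ℤ × ℤ))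
        rw [Finset.card_product] at this
        exact_mod_cast this
      have c2 : (S1.card : ℝ) * S2.card ≤ (4 * Real.exp (ν * lg (M.Q.ε n))) * (4 * Real.exp (ν * lg (M.Q.ε n))) :=
        mul_le_mul hS1 hS2 (Nat.cast_nonneg _) (by positivity)
      have c3 : (4 * Real.exp (ν * lg (M.Q.ε n))) * (4 * Real.exp (ν * lg (M.Q.ε n))) =
          16 * Real.exp (2 * (ν * lg (M.Q.ε n))) := by
        rw [two_mul, Real.exp_add]; ring
      have c4 : 16 * Real.exp (2 * (ν * lg (M.Q.ε n))) ≤ Real.exp 3 * Real.exp (2 * (ν * lg (M.Q.ε n))) :=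
        mul_le_mul_of_nonneg_right dc_hx_exp3 (Real.exp_pos _).le
      rw [← Real.exp_add] at c4
      refine c1.trans (c2.trans (c3.le.trans (c4.trans (Real.exp_le_exp.2 ?_))))
      have b1 : 0 ≤ |C1| := abs_nonneg _
      have b2 : 0 ≤ |C1| * (ν * lg (M.Q.ε n)) := by positivity
      nlinarith
    · have h1 : tcell (M.Q.ε n) v'.1 ((M.Q.S n).c ω) = tcell (M.Q.ε n) v'.1 ((M.Q.S n).c ω₀) := congrArg Prod.fst hA
      have h2 : tcell (M.Q.ε n) v'.2 (M.R n ω) = tcell (M.Q.ε n) v'.2 (M.R n ω₀) :=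
        congrArg (fun p => p.2.1) hA
      exact Finset.mem_image.2 ⟨(tcell (M.Q.ε n) v.1 ((M.Q.S n).c ω), tcell (M.Q.ε n) v.2 (M.R n ω)),
        Finset.mem_product.2 ⟨hS1' _ h1, hS2' _ h2⟩, rfl⟩

/-- ambiguity of lists -/
theorem dc_hx_list {γ m : ℝ} (M : Matched γ m) (n : ℕ) (K : ℝ) (zs zs' : List Sym)
    (h : List.Forall₂ (fun x x' => (M.Q.S n).P.NVal (fun _ => True) (M.OS x n) (M.OS x' n) K) zs zs') :
    (M.Q.S n).P.NVal (fun _ => True) (M.OL zs n) (M.OL zs' n) (K ^ zs.length) := by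
  induction h with
  | nil =>
    intro ω₀
    exact ⟨{[]}, by simp, fun ω _ _ _ => by simp [Matched.OL]⟩
  | @cons x x' zs zs' hx _ ih =>
    intro ω₀
    obtain ⟨S1, hS1, hS1'⟩ := hx ω₀
    obtain ⟨S2, hS2, hS2'⟩ := ih ω₀
    refine ⟨(S1 ×ˢ S2).image (fun p => p.1 :: p.2), ?_, fun ω hω _ hA => ?_⟩
    · have c1 : (((S1 ×ˢ S2).image (fun p : (ℤ × ℤ × ℤ × ℤ × ℤ × ℤ) × List (ℤ × ℤ × ℤ × ℤ × ℤ × ℤ) => p.1 :: p.2)).card : ℝ) ≤
          (S1.card : ℝ) * S2.card := by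
        have := Finset.card_image_le (s := S1 ×ˢ S2)
          (f := fun p : (ℤ × ℤ × ℤ × ℤ × ℤ × ℤ) × List (ℤ × ℤ × ℤ × ℤ × ℤ × ℤ) => p.1 :: p.2)
        rw [Finset.card_product] at this
        exact_mod_cast this
      rw [List.length_cons, pow_succ, mul_comm]
      exact c1.trans (mul_le_mul hS1 hS2 (Nat.cast_nonneg _) ((Nat.cast_nonneg _).trans hS1))
    · have hA' : M.OS x' n ω :: M.OL zs' n ω = M.OS x' n ω₀ :: M.OL zs' n ω₀ := hA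
      rw [List.cons.injEq] at hA'
      exact Finset.mem_image.2 ⟨(M.OS x n ω, M.OL zs n ω),
        Finset.mem_product.2 ⟨hS1' ω hω trivial hA'.1, hS2' ω hω trivial hA'.2⟩, rfl⟩


end amb

section dense

theorem dc_hx_rat (a η : ℝ) (hη : 0 < η) : ∃ q : ℚ, a < q ∧ (q : ℝ) < a + η ∧ |a - q| ≤ η := by
  obtain ⟨q, h1, h2⟩ := exists_rat_btwn (show a < a + η by linarith)
  exact ⟨q, h1, h2, abs_le.2 ⟨by linarith, by linarith⟩⟩

theorem dc_hx_rat_seg (a b ν : ℝ) (h0 : 0 ≤ a) (hab : a ≤ b) (hν : 0 < ν) :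
    ∃ q : ℚ, (0 : ℝ) ≤ q ∧ (q : ℝ) ≤ b ∧ |a - q| ≤ ν := by
  rcases h0.eq_or_lt with h | h
  · exact ⟨0, by simp, by simpa using h0.trans hab, by simp [← h, hν.le]⟩
  · obtain ⟨q, h1, h2⟩ := exists_rat_btwn (show max 0 (a - ν) < a from max_lt h (by linarith))
    have h3 := (le_max_left 0 (a - ν)).trans h1.le
    have h4 := (le_max_right 0 (a - ν)).trans h1.le
    exact ⟨q, h3, h2.le.trans hab, abs_le.2 ⟨by linarith, by linarith⟩⟩

/-- rational admissible symbols are dense -/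
theorem dc_hx_approx {m : ℝ} (hm : 0 < m) (x : Sym) (hx : x.Adm m) (ν : ℝ) (hν : 0 < ν) :
    ∃ x' : Sym, (x'.Adm m ∧ x'.IsQ) ∧ dc_hx_Close ν x x' := by
  rcases x with z | v
  · obtain ⟨a1, a2, a3, a4, a5, a6⟩ := hx
    obtain ⟨qv, b1, b2⟩ := exists_rat_btwn (show z.v < min 1 (z.v + ν) from lt_min a6 (by linarith))
    have b3 := b2.trans_le (min_le_left _ _)
    have b4 := b2.trans_le (min_le_right _ _)
    obtain ⟨s, hs⟩ : ∃ s : ℝ, s = min ((qv : ℝ) - z.v) (m * ((qv : ℝ) - z.v)) := ⟨_, rfl⟩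
    have hs0 : 0 < s := by
      rw [hs]
      exact lt_min (by linarith) (mul_pos hm (by linarith))
    have hs1 : s ≤ (qv : ℝ) - z.v := by rw [hs]; exact min_le_left _ _
    have hs2 : s ≤ m * ((qv : ℝ) - z.v) := by rw [hs]; exact min_le_right _ _
    obtain ⟨η, hη⟩ : ∃ η : ℝ, η = min ν (s / 2) := ⟨_, rfl⟩
    have hη0 : 0 < η := by rw [hη]; exact lt_min hν (by linarith)
    have hη1 : η ≤ ν := by rw [hη]; exact min_le_left _ _
    have hη2 : η ≤ s / 2 := by rw [hη]; exact min_le_right _ _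
    obtain ⟨qX, x1, x2, x3⟩ := dc_hx_rat z.LX η hη0
    obtain ⟨qY, y1, y2, y3⟩ := dc_hx_rat z.LY η hη0
    obtain ⟨qW, w1, w2, w3⟩ := dc_hx_rat z.LW η hη0
    obtain ⟨qZ, z1, z2, z3⟩ := dc_hx_rat z.LZ η hη0
    refine ⟨Sum.inl ⟨qX, qY, qW, qZ, qv⟩, ⟨?_, ?_⟩, ?_⟩
    · show (qY : ℝ) - qX ≤ qv ∧ (qW : ℝ) - qX ≤ m * qv ∧ (qZ : ℝ) - qW ≤ qv ∧ (qZ : ℝ) - qY ≤ m * qv ∧
        0 < (qv : ℝ) ∧ (qv : ℝ) < 1
      exact ⟨by linarith, by linarith, by linarith, by linarith, by linarith, b3⟩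
    · exact ⟨⟨qX, rfl⟩, ⟨qY, rfl⟩, ⟨qW, rfl⟩, ⟨qZ, rfl⟩, ⟨qv, rfl⟩⟩
    · exact ⟨x3.trans hη1, y3.trans hη1, w3.trans hη1, z3.trans hη1, abs_le.2 ⟨by linarith, by linarith⟩⟩
  · obtain ⟨a1, a2, a3, a4⟩ := hx
    obtain ⟨q1, b1, b2, b3⟩ := dc_hx_rat_seg v.1 1 ν a1 a2 hν
    obtain ⟨q2, c1, c2, c3⟩ := dc_hx_rat_seg v.2 m ν a3 a4 hν
    exact ⟨Sum.inr (q1, q2), ⟨⟨b1, b2, c1, c2⟩, ⟨q1, rfl⟩, ⟨q2, rfl⟩⟩, b3, c3⟩

theorem dc_hx_approx_list {m : ℝ} (hm : 0 < m) (ν : ℝ) (hν : 0 < ν) (zs : List Sym) (h : ∀ z ∈ zs, z.Adm m) :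
    ∃ zs' : List Sym, (∀ z ∈ zs', z.Adm m ∧ z.IsQ) ∧ List.Forall₂ (dc_hx_Close ν) zs zs' := by
  induction zs with
  | nil => exact ⟨[], by simp, List.Forall₂.nil⟩
  | cons x zs ih =>
    obtain ⟨zs', h1, h2⟩ := ih fun z hz => h z (List.mem_cons_of_mem _ hz)
    obtain ⟨x', h3, h4⟩ := dc_hx_approx hm x (h x List.mem_cons_self) ν hν
    refine ⟨x' :: zs', fun z hz => ?_, List.Forall₂.cons h4 h2⟩
    rcases List.mem_cons.1 hz with rfl | hz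
    · exact h3
    · exact h1 z hz


end dense

section main

/-- ambiguity of two close lists, one direction -/
theorem dc_hx_list' {γ m : ℝ} (M : Matched γ m) (n : ℕ) (C ν : ℝ)
    (hC : ∀ (x x' : Sym), x.Adm m → dc_hx_Close ν x x' →
      (M.Q.S n).P.NVal (fun _ => True) (M.OS x n) (M.OS x' n) (Real.exp (C * ν * lg (M.Q.ε n) + C)))
    (zs zs' : List Sym) (ha : ∀ z ∈ zs, z.Adm m) (h : List.Forall₂ (dc_hx_Close ν) zs zs') :
    (M.Q.S n).P.NVal (fun _ => True) (M.OL zs n) (M.OL zs' n) (Real.exp (C * ν * lg (M.Q.ε n) + C) ^ zs.length) := by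
  refine dc_hx_list M n _ zs zs' ?_
  induction h with
  | nil => exact List.Forall₂.nil
  | @cons x x' zs zs' hx _ ih =>
    exact List.Forall₂.cons (hC x x' (ha x List.mem_cons_self) hx) (ih fun z hz => ha z (List.mem_cons_of_mem _ hz))

/-- mutual ambiguity of close lists -/
theorem dc_hx_amb {γ m : ℝ} (M : Matched γ m) (n : ℕ) (C ν : ℝ) (hK : 0 ≤ C * ν * lg (M.Q.ε n) + C)
    (hC : ∀ (x x' : Sym), x.Adm m → dc_hx_Close ν x x' →
      (M.Q.S n).P.NVal (fun _ => True) (M.OS x n) (M.OS x' n) (Real.exp (C * ν * lg (M.Q.ε n) + C)))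
    (zs zs₁ ws ws₁ : List Sym) (ha : ∀ z ∈ zs, z.Adm m) (ha₁ : ∀ z ∈ zs₁, z.Adm m)
    (hb : ∀ z ∈ ws, z.Adm m) (hb₁ : ∀ z ∈ ws₁, z.Adm m)
    (h : List.Forall₂ (dc_hx_Close ν) zs zs₁) (h' : List.Forall₂ (dc_hx_Close ν) ws ws₁) :
    dc_hx_Amb (M.Q.S n).P (M.OL zs n) (M.OL ws n) (M.OL zs₁ n) (M.OL ws₁ n)
        (Real.exp (C * ν * lg (M.Q.ε n) + C) ^ (zs.length + ws.length)) ∧
      dc_hx_Amb (M.Q.S n).P (M.OL zs n) (M.Q.pr2 M.Q.T (M.OL ws) n) (M.OL zs₁ n) (M.Q.pr2 M.Q.T (M.OL ws₁) n)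
        (Real.exp (C * ν * lg (M.Q.ε n) + C) ^ (zs.length + ws.length)) := by
  obtain ⟨K, hKd⟩ : ∃ K : ℝ, K = Real.exp (C * ν * lg (M.Q.ε n) + C) := ⟨_, rfl⟩
  rw [← hKd] at hC ⊢
  have hK1 : 1 ≤ K := by rw [hKd]; exact Real.one_le_exp hK
  have hs : List.Forall₂ (dc_hx_Close ν) zs₁ zs := (h.flip).imp fun _ _ hh => dc_hx_close_symm hh
  have hs' : List.Forall₂ (dc_hx_Close ν) ws₁ ws := (h'.flip).imp fun _ _ hh => dc_hx_close_symm hh
  have e1 : zs₁.length = zs.length := h.length_eq.symm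
  have e2 : ws₁.length = ws.length := h'.length_eq.symm
  have n1 : (M.Q.S n).P.NVal (fun _ => True) (M.OL zs n) (M.OL zs₁ n) (K ^ zs.length) := by
    rw [hKd] at hC ⊢; exact dc_hx_list' M n C ν hC zs zs₁ ha h
  have n2 : (M.Q.S n).P.NVal (fun _ => True) (M.OL zs₁ n) (M.OL zs n) (K ^ zs.length) := by
    rw [hKd] at hC ⊢; rw [← e1]; exact dc_hx_list' M n C ν hC zs₁ zs ha₁ hs
  have n3 : (M.Q.S n).P.NVal (fun _ => True) (M.OL ws n) (M.OL ws₁ n) (K ^ ws.length) := by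
    rw [hKd] at hC ⊢; exact dc_hx_list' M n C ν hC ws ws₁ hb h'
  have n4 : (M.Q.S n).P.NVal (fun _ => True) (M.OL ws₁ n) (M.OL ws n) (K ^ ws.length) := by
    rw [hKd] at hC ⊢; rw [← e2]; exact dc_hx_list' M n C ν hC ws₁ ws hb₁ hs'
  have hle : K ^ ws.length ≤ K ^ (zs.length + ws.length) := pow_le_pow_right₀ hK1 (by omega)
  have t3 : (M.Q.S n).P.NVal (fun _ => True) (M.Q.pr2 M.Q.T (M.OL ws) n) (M.Q.pr2 M.Q.T (M.OL ws₁) n) (K ^ ws.length) := by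
    have := dc_hx_nval_pair (M.Q.S n).P (dc_hx_nval_self (M.Q.S n).P (M.Q.T n)) n3
    rwa [one_mul] at this
  have t4 : (M.Q.S n).P.NVal (fun _ => True) (M.Q.pr2 M.Q.T (M.OL ws₁) n) (M.Q.pr2 M.Q.T (M.OL ws) n) (K ^ ws.length) := by
    have := dc_hx_nval_pair (M.Q.S n).P (dc_hx_nval_self (M.Q.S n).P (M.Q.T n)) n4
    rwa [one_mul] at this
  refine ⟨⟨?_, ?_, dc_hx_nval_mono _ n3 hle, dc_hx_nval_mono _ n4 hle⟩, ?_, ?_, dc_hx_nval_mono _ t3 hle,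
    dc_hx_nval_mono _ t4 hle⟩
  · rw [pow_add]; exact dc_hx_nval_pair _ n1 n3
  · rw [pow_add]; exact dc_hx_nval_pair _ n2 n4
  · rw [pow_add]; exact dc_hx_nval_pair _ n1 t3
  · rw [pow_add]; exact dc_hx_nval_pair _ n2 t4

/-- **L2.9 (2)**: homogeneity at all admissible symbols from the rational ones -/
theorem dc_hx_main {γ m : ℝ} (hm : 0 < m) (M : Matched γ m)
    (h : ∀ zs zs' : List Sym, (∀ z ∈ zs, z.Adm m ∧ z.IsQ) → (∀ z ∈ zs', z.Adm m ∧ z.IsQ) → M.HomAt zs zs') :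
    ∀ zs zs' : List Sym, (∀ z ∈ zs, z.Adm m) → (∀ z ∈ zs', z.Adm m) → M.HomAt zs zs' := by
  intro zs ws ha hb
  obtain ⟨C, hC0, hC⟩ := dc_hx_sym (γ := γ) hm
  have hlg := dc_hx_lg_atTop M.Q
  -- the common approximation
  have key : ∀ ν : ℝ, 0 < ν → ∃ zs₁ ws₁ : List Sym, (∀ z ∈ zs₁, z.Adm m ∧ z.IsQ) ∧ (∀ z ∈ ws₁, z.Adm m ∧ z.IsQ) ∧
      ∀ᶠ n in uf, ∃ N : ℝ, 0 < N ∧ Real.log N ≤ ν * lg (M.Q.ε n) ∧
        dc_hx_Amb (M.Q.S n).P (M.OL zs n) (M.OL ws n) (M.OL zs₁ n) (M.OL ws₁ n) N ∧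
        dc_hx_Amb (M.Q.S n).P (M.OL zs n) (M.Q.pr2 M.Q.T (M.OL ws) n) (M.OL zs₁ n) (M.Q.pr2 M.Q.T (M.OL ws₁) n) N := by
    intro ν hν
    obtain ⟨L, hL⟩ : ∃ L : ℝ, L = ((zs.length + ws.length : ℕ) : ℝ) := ⟨_, rfl⟩
    have hL0 : 0 ≤ L := by rw [hL]; exact Nat.cast_nonneg _
    obtain ⟨ν', hν'⟩ : ∃ ν' : ℝ, ν' = ν / (2 * (C + 1) * (L + 1)) := ⟨_, rfl⟩
    have hν'0 : 0 < ν' := by rw [hν']; positivity
    have hν'1 : C * ν' * L ≤ ν / 2 := by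
      rw [hν']
      have e : C * (ν / (2 * (C + 1) * (L + 1))) * L = ν / 2 * ((C / (C + 1)) * (L / (L + 1))) := by
        field_simp
      rw [e]
      have a1 : C / (C + 1) ≤ 1 := (div_le_one (by linarith)).2 (by linarith)
      have a2 : L / (L + 1) ≤ 1 := (div_le_one (by linarith)).2 (by linarith)
      have a3 : 0 ≤ L / (L + 1) := by positivity
      have a4 : C / (C + 1) * (L / (L + 1)) ≤ 1 := by
        calc C / (C + 1) * (L / (L + 1)) ≤ 1 * 1 := mul_le_mul a1 a2 a3 (by norm_num)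
          _ = 1 := by norm_num
      nlinarith
    obtain ⟨zs₁, p1, p2⟩ := dc_hx_approx_list hm ν' hν'0 zs ha
    obtain ⟨ws₁, q1, q2⟩ := dc_hx_approx_list hm ν' hν'0 ws hb
    refine ⟨zs₁, ws₁, p1, q1, ?_⟩
    filter_upwards [hlg.eventually_ge_atTop (2 * (C * L) / ν)] with n hn
    have hl := dc_hx_lg_pos M.Q n
    have hK : 0 ≤ C * ν' * lg (M.Q.ε n) + C := by positivity
    have hamb := dc_hx_amb M n C ν' hK (fun x x' hx hc => hC M ν' x x' n hν'0.le hx hc) zs zs₁ ws ws₁ ha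
      (fun z hz => (p1 z hz).1) hb (fun z hz => (q1 z hz).1) p2 q2
    refine ⟨_, by positivity, ?_, hamb.1, hamb.2⟩
    rw [Real.log_pow, Real.log_exp, ← hL]
    have b1 : C * L ≤ ν / 2 * lg (M.Q.ε n) := by
      rw [div_le_iff₀ hν] at hn
      linarith
    have b2 : C * ν' * L * lg (M.Q.ε n) ≤ ν / 2 * lg (M.Q.ε n) := mul_le_mul_of_nonneg_right hν'1 hl.le
    nlinarith
  constructor
  · refine dc_hx_seq M.Q (M.OL zs) (M.OL ws) fun ν hν => ?_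
    obtain ⟨zs₁, ws₁, p1, q1, hev⟩ := key ν hν
    obtain ⟨d, hd⟩ := (h zs₁ ws₁ p1 q1).1
    refine ⟨_, _, M.OL zs₁, M.OL ws₁, d, hd, ?_⟩
    filter_upwards [hev] with n hn
    obtain ⟨N, h1, h2, h3, _⟩ := hn
    exact ⟨N, h1, h2, h3⟩
  · refine dc_hx_seq M.Q (M.OL zs) (M.Q.pr2 M.Q.T (M.OL ws)) fun ν hν => ?_
    obtain ⟨zs₁, ws₁, p1, q1, hev⟩ := key ν hν
    obtain ⟨d, hd⟩ := (h zs₁ ws₁ p1 q1).2
    refine ⟨_, _, M.OL zs₁, M.Q.pr2 M.Q.T (M.OL ws₁), d, hd, ?_⟩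
    filter_upwards [hev] with n hn
    obtain ⟨N, h1, h2, _, h4⟩ := hn
    exact ⟨N, h1, h2, h4⟩


end main

end Claimed.Agent.R255
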